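import Vale.Agent.P011.H505.Rl.Plane

/-!
The lifts of the rotations of an oriented plane form a one-parameter group.
-/

namespace Vale.Agent.P011.D4.Oct.Pl

open Vale.Agent.P011.MPQ

section field

variable {F : Type} [Field F] {a b c : Fˣ}

theorem Orth.sq0 {u v : Oct a b c} (h : Orth u v) (x : Oct a b c) :
    star u * (v * (star u * (v * x))) = -x := by
  have h1 := h.skew x
  rw [← neg_eq_iff_eq_neg] at h1
  rw [← h1, mul_neg, mul_neg, mul_star_mul, h.nv, one_smul, star_mul_mul, h.nu, one_smul]

theorem Orth.sq1 {u v : Oct a b c} (h : Orth u v) (x : Oct a b c) :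
    (((x * v) * star u) * v) * star u = -x := by
  have h1 := h.skew' x
  rw [← neg_eq_iff_eq_neg] at h1
  rw [← h1, neg_mul, neg_mul, mul_star_mul', h.nv, one_smul, mul_mul_star, h.nu, one_smul]

/-- The lifts of the rotations of a plane: addition of the angles. -/
theorem Orth.add {u v : Oct a b c} (h : Orth u v) {C S C' S' : F} (h1 : C ^ 2 + S ^ 2 = 1)
    (h2 : C' ^ 2 + S' ^ 2 = 1) : Lf u (C • u + S • v) * Lf u (C' • u + S' • v) =
      Lf u ((C * C' - S * S') • u + (S * C' + C * S') • v) := by
  have h3 : (C * C' - S * S') ^ 2 + (S * C' + C * S') ^ 2 = 1 := by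
    linear_combination (C' ^ 2 + S' ^ 2) * h1 + h2
  refine tr_ext (fun x => ?_) (fun x => ?_) fun x => ?_
  · rw [mul_0, h.L0, h.L0, h.L0, mul_add, mul_add, mul_smul_oct, mul_smul_oct, mul_smul_oct,
      mul_smul_oct, h.sq0]
    match_scalars <;> ring
  · rw [mul_1, h.L1, h.L1, h.L1, add_mul, add_mul, smul_mul_oct, smul_mul_oct, smul_mul_oct,
      smul_mul_oct, h.sq1]
    match_scalars <;> ring
  · have huu : bil u u = 2 := by rw [bil_self, h.nu, mul_one]
    have hvv : bil v v = 2 := by rw [bil_self, h.nv, mul_one]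
    have hvu : bil v u = 0 := by rw [bil_comm, h.uv]
    rw [mul_2, h.L2 h1, h.L2 h2, h.L2 h3]
    simp only [bil_add_right, bil_sub_right, bil_smul_right, huu, hvv, hvu, h.uv]
    match_scalars
    · ring
    · linear_combination (bil u x * S' ^ 2 - bil v x * C' * S') * h1 +
        (bil u x * S ^ 2 - bil v x * C * S) * h2
    · linear_combination (bil v x * S' ^ 2 + bil u x * C' * S') * h1 +
        (bil v x * S ^ 2 + bil u x * C * S) * h2

end field

variable {a b c : ℝˣ}

theorem lift_add {u v : Oct a b c} (h : Orth u v) (s t : ℝ) :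
    lift u v (s + t) = lift u v s * lift u v t := by
  rw [lift, lift, lift, h.add (cs s) (cs t), Real.cos_add, Real.sin_add]

theorem lift_zero {u v : Oct a b c} (h : Orth u v) : lift u v 0 = 1 := by
  have := lift_inv h 0
  rw [neg_zero] at this
  have h2 := lift_add h 0 0
  rw [add_zero, this] at h2
  exact h2

theorem lift_0 {u v : Oct a b c} (h : Orth u v) (t : ℝ) (x : Oct a b c) :
    (lift u v t).1 x = Real.cos t • x + Real.sin t • (star u * (v * x)) := h.L0 _ _ x

theorem lift_1 {u v : Oct a b c} (h : Orth u v) (t : ℝ) (x : Oct a b c) :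
    (lift u v t).2.1 x = Real.cos t • x + Real.sin t • ((x * v) * star u) := h.L1 _ _ x

theorem lift_2 {u v : Oct a b c} (h : Orth u v) (t : ℝ) (x : Oct a b c) :
    (lift u v t).2.2 x = x - Real.sin t ^ 2 • (bil u x • u + bil v x • v) +
      (Real.cos t * Real.sin t) • (bil v x • u - bil u x • v) := h.L2 (cs t) x

end Vale.Agent.P011.D4.Oct.Pl
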