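import Vale.Agent.P011.H280.Rl.Dia
import Vale.Agent.P011.H44.Rl.Fam
import Vale.Agent.P011.H505.Rl.Add

/-!
The diagonal case: two commuting elements of the compact group with the three idempotents as
common eigenvectors.
-/

namespace Vale.Agent.P011.H505.Rl

open Vale.Agent.P011.MPQ Vale.Agent.P011.D4 Vale.Agent.P011.D4.Oct Vale.Agent.P011.D4.Oct.Pl
open Vale.Agent.P011.E6
open Vale.Agent.P011.E6.Alb Vale.Agent.P011.H261.Rl Vale.Agent.P011.H44.Rl
open Vale.Agent.P011.H280.Rl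

theorem pos_OR (x : OR) (hx : x ≠ 0) : 0 < Oct.norm x := by
  have h : Oct.norm x = x.fst.re ^ 2 + x.fst.imI ^ 2 + x.fst.imJ ^ 2 + x.fst.imK ^ 2 +
      (x.snd.re ^ 2 + x.snd.imI ^ 2 + x.snd.imJ ^ 2 + x.snd.imK ^ 2) := by
    simp [Oct.norm, nrd]
    ring
  have h1 : 0 ≤ Oct.norm x := by rw [h]; positivity
  refine lt_of_le_of_ne h1 fun h0 => hx ?_
  rw [h] at h0
  have a1 := sq_nonneg x.fst.re
  have a2 := sq_nonneg x.fst.imI
  have a3 := sq_nonneg x.fst.imJ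
  have a4 := sq_nonneg x.fst.imK
  have a5 := sq_nonneg x.snd.re
  have a6 := sq_nonneg x.snd.imI
  have a7 := sq_nonneg x.snd.imJ
  have a8 := sq_nonneg x.snd.imK
  apply ext8
  · exact pow_eq_zero_iff (two_ne_zero) |>.1 (by linarith)
  · exact pow_eq_zero_iff (two_ne_zero) |>.1 (by linarith)
  · exact pow_eq_zero_iff (two_ne_zero) |>.1 (by linarith)
  · exact pow_eq_zero_iff (two_ne_zero) |>.1 (by linarith)
  · exact pow_eq_zero_iff (two_ne_zero) |>.1 (by linarith)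
  · exact pow_eq_zero_iff (two_ne_zero) |>.1 (by linarith)
  · exact pow_eq_zero_iff (two_ne_zero) |>.1 (by linarith)
  · exact pow_eq_zero_iff (two_ne_zero) |>.1 (by linarith)

/-- The operator of a triple. -/
noncomputable def ct (t : Tr (-1 : ℝˣ) (-1 : ℝˣ) (-1 : ℝˣ)) : RV := cr t.1 t.2.1 t.2.2

theorem ct_mul (t s : Tr (-1 : ℝˣ) (-1 : ℝˣ) (-1 : ℝˣ)) : ct (t * s) = ct t * ct s :=
  cr_mul _ _ _ _ _ _

theorem ct_one : ct 1 = 1 := cr_one

theorem isRel_of_rel {t : Tr (-1 : ℝˣ) (-1 : ℝˣ) (-1 : ℝˣ)} (h : Rel t) :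
    IsRel t.1 t.2.1 t.2.2 := ⟨h.n0, h.n1, h.n2, h.tri⟩

theorem rel_of_isRel {s₁ s₂ s₃ : OR →ₗ[ℝ] OR} (h : IsRel s₁ s₂ s₃) :
    Rel ((s₁, s₂, s₃) : Tr (-1 : ℝˣ) (-1 : ℝˣ) (-1 : ℝˣ)) := ⟨h.n1, h.n2, h.n3, h.tri⟩

theorem Lf_2_eq (u w x : OR) : (Lf u w).2.2 x = lf2 u w x := by
  rw [Lf_2', lf2_apply, ← flex u, ← flex (star w)]

theorem ct_Lf (u w : OR) : ct (Lf u w) = cr (lf0 u w) (lf1 u w) (lf2 u w) := by
  have h2 : (Lf u w).2.2 = lf2 u w := LinearMap.ext (Lf_2_eq u w)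
  rw [ct, h2]
  rfl

theorem ct_lift {u v : OR} (t : ℝ) :
    ct (lift u v t) = LinearMap.toContinuousLinearMap (gam u v t) := by
  have e : lift u v t = Lf u (wv u v t) := rfl
  rw [e, ct_Lf]
  rfl

theorem continuous_ct_lift {u v : OR} (h : Orth u v) : Continuous fun t : ℝ => ct (lift u v t) := by
  refine continuous_of_apply fun x => ?_
  have e : (fun t : ℝ => ct (lift u v t) x) = fun t : ℝ => gam u v t x := by
    funext t
    rw [ct_lift]
    rfl
  rw [e]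
  exact continuous_gam h.nu h.nv h.uv x

theorem tt_comm (α β s : ℝ) (α' β' t : ℝ) :
    tt α β s * tt α' β' t = tt α' β' t * tt α β s := by
  rw [tt, tt, ← tz_mul, ← tz_mul, mul_comm (ei _), mul_comm (ei (s * β)),
    mul_comm (ei (s * (-α - β)))]

theorem ct_tt (r : Tr (-1 : ℝˣ) (-1 : ℝˣ) (-1 : ℝˣ)) (α β t : ℝ) :
    ct r * tt α β t = tt α β t * ct r := cr_tz _ _ _ _ _ _

/-- The elements of a related triple that commutes with the related triple of the involution. -/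
theorem con_ct {J : RV} {α β : ℝ} {k j : Tr (-1 : ℝˣ) (-1 : ℝˣ) (-1 : ℝˣ)} (hk : Rel k)
    (hj : Rel j) (hkj : k * j = j * k)
    (hjj : (∀ z, j.2.2 (j.2.2 z) = z) ∨ ∀ z, j.2.2 (j.2.2 z) = -z)
    (hJ : J = tt α β 1 * ct j) : Con J (ct k) := by
  refine planes pos_OR hk hj hkj hjj {t | Con J (ct t)} ?_ ?_ ?_
  · change Con J (ct 1)
    rw [ct_one]
    exact H280.Rl.Con.one J
  · intro x hx y hy
    change Con J (ct (x * y))
    rw [ct_mul]
    exact H280.Rl.Con.mul hx hy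
  · intro u v hu hv huv hpq φ
    obtain ⟨p, q, hpq⟩ := hpq
    have ho : Orth u v := ⟨hu, hv, huv⟩
    refine H280.Rl.Con.of_one (γ := fun t : ℝ => ct (lift u v t)) ?_ ?_ (continuous_ct_lift ho) ?_ φ
    · rw [lift_zero ho, ct_one]
    · intro s t
      rw [lift_add ho, ct_mul]
    · intro t
      refine (IsU.cr (isRel_of_rel (lift_rel ho t))).mem ?_
      change ct (lift u v t) * J = J * ct (lift u v t)
      rw [hJ, ← mul_assoc, ct_tt, mul_assoc, mul_assoc, ← ct_mul, ← ct_mul,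
        lift_comm hj ho hpq t]

/-- **The diagonal case.** -/
theorem diag {J k : RV} (hJJ : J * J = 1) (hJ : IsU J) (hk : IsU k) (hkJ : k * J = J * k)
    (h : ∃ m1 m2 m3 l1 l2 l3 : ℂ, J e1 = m1 • e1 ∧ J e2 = m2 • e2 ∧ J e3 = m3 • e3 ∧
      k e1 = l1 • e1 ∧ k e2 = l2 • e2 ∧ k e3 = l3 • e3) : Con J k := by
  obtain ⟨m1, m2, m3, l1, l2, l3, hm1, hm2, hm3, hl1, hl2, hl3⟩ := h
  obtain ⟨α, β, hα, hβ, -, j₁, j₂, j₃, hj, hJe⟩ := exists_tt hJ hm1 hm2 hm3
  obtain ⟨α', β', -, -, -, s₁, s₂, s₃, hs, hke⟩ := exists_tt hk hl1 hl2 hl3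
  obtain ⟨j, hjd⟩ : ∃ j : Tr (-1 : ℝˣ) (-1 : ℝˣ) (-1 : ℝˣ), j = (j₁, j₂, j₃) := ⟨_, rfl⟩
  obtain ⟨s, hsd⟩ : ∃ s : Tr (-1 : ℝˣ) (-1 : ℝˣ) (-1 : ℝˣ), s = (s₁, s₂, s₃) := ⟨_, rfl⟩
  have hjr : Rel j := by rw [hjd]; exact rel_of_isRel hj
  have hsr : Rel s := by rw [hsd]; exact rel_of_isRel hs
  have hJe' : J = tt α β 1 * ct j := by rw [hJe, hjd]; rfl
  have hke' : k = tt α' β' 1 * ct s := by rw [hke, hsd]; rfl
  have hinv : ∀ α β : ℝ, tt α β (-1) * tt α β 1 = 1 := fun α β => by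
    rw [← tt_add, neg_add_cancel, tt_zero]
  -- the squares of the eigenvalues
  have hsq : ∀ {m : ℂ} {x : VC}, x ≠ 0 → J x = m • x → m * m = 1 := by
    intro m x hx hm
    have h1 : J (J x) = x := by rw [← mul_app, hJJ, one_app]
    rw [hm, map_smul, hm, smul_smul] at h1
    have h2 : (m * m - 1) • x = 0 := by rw [sub_smul, h1, one_smul, sub_self]
    rcases smul_eq_zero.1 h2 with h3 | h3
    · linear_combination h3
    · exact absurd h3 hx
  have hne1 : (e1 : VC) ≠ 0 := fun h0 => one_ne_zero (congrArg (fun x : VC => x.d1) h0)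
  have hne2 : (e2 : VC) ≠ 0 := fun h0 => one_ne_zero (congrArg (fun x : VC => x.d2) h0)
  have hmm : (m1 * m2) * (m1 * m2) = 1 := by
    linear_combination (m2 * m2) * hsq hne1 hm1 + hsq hne2 hm2
  have hjj : ∀ x : OR, (m1 * m2) • upo (j₃ (j₃ x)) = upo x := by
    intro x
    have h1 : J (J (⟨0, 0, 0, 0, 0, upo x⟩ : VC)) = (⟨0, 0, 0, 0, 0, upo x⟩ : VC) := by
      rw [← mul_app, hJJ, one_app]
    have h2 := congrArg (fun y : VC => y.x3) h1
    have h3 : (J (J (⟨0, 0, 0, 0, 0, upo x⟩ : VC))).x3 =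
        (ei (1 * α) * ei (1 * β)) • cxo j₃ ((ei (1 * α) * ei (1 * β)) • cxo j₃ (upo x)) := by
      rw [hJe]
      rfl
    have h4 : (J (J (⟨0, 0, 0, 0, 0, upo x⟩ : VC))).x3 = upo x := h2
    rw [h3, map_smul, cxo_upo, cxo_upo, smul_smul] at h4
    rw [← h4]
    congr 1
    rw [hα, hβ, one_mul, one_mul]
    ring
  have hjj' : (∀ z, j.2.2 (j.2.2 z) = z) ∨ ∀ z, j.2.2 (j.2.2 z) = -z := by
    rw [hjd]
    rcases mul_self_eq_one_iff.1 hmm with h1 | h1
    · left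
      intro z
      have h2 := hjj z
      rw [h1, one_smul] at h2
      exact upo_injective h2
    · right
      intro z
      have h2 := hjj z
      rw [h1, neg_one_smul, ← upo_neg] at h2
      exact neg_eq_iff_eq_neg.1 (upo_injective h2)
  have hcomm : s * j = j * s := by
    have h1 : ct s * ct j = ct j * ct s := by
      have h2 : (tt α' β' 1 * tt α β 1) * (ct s * ct j) =
          (tt α' β' 1 * tt α β 1) * (ct j * ct s) := by
        calc (tt α' β' 1 * tt α β 1) * (ct s * ct j)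
            = tt α' β' 1 * (tt α β 1 * ct s) * ct j := by simp only [mul_assoc]
          _ = (tt α' β' 1 * ct s) * (tt α β 1 * ct j) := by
            rw [← ct_tt]; simp only [mul_assoc]
          _ = (tt α β 1 * ct j) * (tt α' β' 1 * ct s) := by rw [← hJe', ← hke', hkJ]
          _ = tt α β 1 * (ct j * tt α' β' 1) * ct s := by simp only [mul_assoc]
          _ = (tt α β 1 * tt α' β' 1) * (ct j * ct s) := by
            rw [ct_tt]; simp only [mul_assoc]
          _ = _ := by rw [tt_comm]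
      calc ct s * ct j = (tt α β (-1) * (tt α' β' (-1) * tt α' β' 1) * tt α β 1) *
            (ct s * ct j) := by rw [hinv, mul_one, hinv, one_mul]
        _ = tt α β (-1) * tt α' β' (-1) * ((tt α' β' 1 * tt α β 1) * (ct s * ct j)) := by
            simp only [mul_assoc]
        _ = tt α β (-1) * tt α' β' (-1) * ((tt α' β' 1 * tt α β 1) * (ct j * ct s)) := by rw [h2]
        _ = (tt α β (-1) * (tt α' β' (-1) * tt α' β' 1) * tt α β 1) * (ct j * ct s) := by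
            simp only [mul_assoc]
        _ = _ := by rw [hinv, mul_one, hinv, one_mul]
    rw [← ct_mul, ← ct_mul] at h1
    obtain ⟨g0, g1, g2⟩ := cr_inj h1
    exact Prod.ext g0 (Prod.ext g1 g2)
  rw [hke']
  refine H280.Rl.Con.mul (H280.Rl.Con.tt α' β' (fun t => ?_) 1) (con_ct hsr hjr hcomm hjj' hJe')
  rw [hJe', ← mul_assoc, tt_comm, mul_assoc, mul_assoc, ct_tt]

end Vale.Agent.P011.H505.Rl
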