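import Vale.Agent.P011.H518.Rl.Red
import Vale.Agent.P011.H518.Rl.Pol
import Vale.Agent.P011.H505.Rl.Diag

/-!
The group of the maps that preserve the cubic form and a form `inner (J x) y`, where `J` is an
involution in the compact group, is contained in every monoid that contains the exponentials of
its Lie algebra.
-/

namespace Vale.Agent.P011.H505.Rl

open Vale.Agent.P011.H280.Rl Vale.Agent.P011.H518.Rl

/-- **Theorem F.** -/
theorem thmF {J f : RV} (hJJ : J * J = 1) (hJ : IsU J) (hf : f ∈ GJ J) : H280.Rl.Con J f := by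
  obtain ⟨k, hk, hkJ, h⟩ := pol hJJ hJ hf
  exact h (red hJJ hJ hk hkJ fun J' k' h1 h2 h3 h4 h5 => diag h1 h2 h3 h4 h5)

end Vale.Agent.P011.H505.Rl
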