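import Vale.Agent.P011.H505.Rl.Lift

/-!
Related triples whose third component is the identity or a reflection.
-/

namespace Vale.Agent.P011.D4.Oct.Pl

open Vale.Agent.P011.MPQ

variable {F : Type} [Field F] {a b c : Fˣ}

theorem eq_zero_of_eq_neg [NeZero (2 : F)] {x : F} (h : x = -x) : x = 0 := by
  have h2 : (2 : F) * x = 0 := by linear_combination h
  exact (mul_eq_zero.1 h2).resolve_left (NeZero.ne 2)

/-- The centre of the octonion algebra. -/
theorem center [NeZero (2 : F)] {p : Oct a b c} (h : ∀ y, p * y = y * p) :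
    ∃ s : F, p = s • 1 := by
  have ha := a.ne_zero
  have e1 := h gi
  have e2 := h gj
  have f2 := congrArg (fun x : Oct a b c => x.fst.imK) e1
  have f4 := congrArg (fun x : Oct a b c => x.fst.imK) e2
  have f1 := congrArg (fun x : Oct a b c => x.fst.imJ) e1
  have f5 := congrArg (fun x : Oct a b c => x.snd.re) e1
  have f6 := congrArg (fun x : Oct a b c => x.snd.imI) e1
  have f7 := congrArg (fun x : Oct a b c => x.snd.imJ) e1
  have f8 := congrArg (fun x : Oct a b c => x.snd.imK) e1
  simp only [gi, gj, fst_mul, snd_mul, QuaternionAlgebra.re_add, QuaternionAlgebra.imI_add,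
    QuaternionAlgebra.imJ_add, QuaternionAlgebra.imK_add, QuaternionAlgebra.re_mul,
    QuaternionAlgebra.imI_mul, QuaternionAlgebra.imJ_mul, QuaternionAlgebra.imK_mul,
    QuaternionAlgebra.re_star, QuaternionAlgebra.imI_star, QuaternionAlgebra.imJ_star,
    QuaternionAlgebra.imK_star, QuaternionAlgebra.imJ_smul, QuaternionAlgebra.imK_smul,
    smul_eq_mul, QuaternionAlgebra.re_zero, QuaternionAlgebra.imI_zero,
    QuaternionAlgebra.imJ_zero, QuaternionAlgebra.imK_zero] at f1 f2 f4 f5 f6 f7 f8
  have g1 : p.fst.imI = 0 := eq_zero_of_eq_neg (by linear_combination f4)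
  have g2 : p.fst.imJ = 0 := eq_zero_of_eq_neg (by linear_combination -f2)
  have g3 : p.fst.imK = 0 := (mul_eq_zero.1 (eq_zero_of_eq_neg
    (show (a : F) * p.fst.imK = -((a : F) * p.fst.imK) by linear_combination -f1))).resolve_left ha
  have g4 : p.snd.re = 0 := eq_zero_of_eq_neg (by linear_combination -f6)
  have g5 : p.snd.imI = 0 := (mul_eq_zero.1 (eq_zero_of_eq_neg
    (show (a : F) * p.snd.imI = -((a : F) * p.snd.imI) by linear_combination -f5))).resolve_left ha
  have g6 : p.snd.imJ = 0 := eq_zero_of_eq_neg (by linear_combination f8)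
  have g7 : p.snd.imK = 0 := (mul_eq_zero.1 (eq_zero_of_eq_neg
    (show (a : F) * p.snd.imK = -((a : F) * p.snd.imK) by linear_combination f7))).resolve_left ha
  exact ⟨p.fst.re, by apply ext8 <;> simp [g1, g2, g3, g4, g5, g6, g7]⟩

/-- The right nucleus of the octonion algebra. -/
theorem nuc [NeZero (2 : F)] {p : Oct a b c} (h : ∀ z x, z * (x * p) = (z * x) * p) :
    ∃ s : F, p = s • 1 := by
  have ha := a.ne_zero
  have hb := b.ne_zero
  have e1 := h gi gj
  have e2 := h gl gi
  have e3 := h gl gj
  have f1 := congrArg (fun x : Oct a b c => x.snd.re) e1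
  have f2 := congrArg (fun x : Oct a b c => x.snd.imI) e1
  have f3 := congrArg (fun x : Oct a b c => x.snd.imJ) e1
  have f4 := congrArg (fun x : Oct a b c => x.snd.imK) e1
  have f7 := congrArg (fun x : Oct a b c => x.snd.imJ) e2
  have f8 := congrArg (fun x : Oct a b c => x.snd.imK) e2
  have f12 := congrArg (fun x : Oct a b c => x.snd.imK) e3
  simp only [gi, gj, gl, fst_mul, snd_mul, QuaternionAlgebra.re_add, QuaternionAlgebra.imI_add,
    QuaternionAlgebra.imJ_add, QuaternionAlgebra.imK_add, QuaternionAlgebra.re_mul,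
    QuaternionAlgebra.imI_mul, QuaternionAlgebra.imJ_mul, QuaternionAlgebra.imK_mul,
    QuaternionAlgebra.re_star, QuaternionAlgebra.imI_star, QuaternionAlgebra.imJ_star,
    QuaternionAlgebra.imK_star, QuaternionAlgebra.re_smul, QuaternionAlgebra.imI_smul,
    QuaternionAlgebra.imJ_smul, QuaternionAlgebra.imK_smul, smul_eq_mul,
    QuaternionAlgebra.re_zero, QuaternionAlgebra.imI_zero, QuaternionAlgebra.imJ_zero,
    QuaternionAlgebra.imK_zero, QuaternionAlgebra.re_one, QuaternionAlgebra.imI_one,
    QuaternionAlgebra.imJ_one, QuaternionAlgebra.imK_one] at f1 f2 f3 f4 f7 f8 f12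
  have g1 : p.fst.imI = 0 := eq_zero_of_eq_neg (by linear_combination f12)
  have g2 : p.fst.imJ = 0 := eq_zero_of_eq_neg (by linear_combination -f8)
  have g3 : p.fst.imK = 0 := (mul_eq_zero.1 (eq_zero_of_eq_neg
    (show (a : F) * p.fst.imK = -((a : F) * p.fst.imK) by linear_combination -f7))).resolve_left ha
  have g4 : p.snd.re = 0 := eq_zero_of_eq_neg (by linear_combination -f4)
  have g5 : p.snd.imI = 0 := (mul_eq_zero.1 (eq_zero_of_eq_neg
    (show (a : F) * p.snd.imI = -((a : F) * p.snd.imI) by linear_combination -f3))).resolve_left ha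
  have g6 : p.snd.imJ = 0 := (mul_eq_zero.1 (eq_zero_of_eq_neg
    (show (b : F) * p.snd.imJ = -((b : F) * p.snd.imJ) by linear_combination f2))).resolve_left hb
  have g7 : p.snd.imK = 0 := (mul_eq_zero.1 (eq_zero_of_eq_neg
    (show ((a : F) * b) * p.snd.imK = -(((a : F) * b) * p.snd.imK) by
      linear_combination f1))).resolve_left (mul_ne_zero ha hb)
  exact ⟨p.fst.re, by apply ext8 <;> simp [g1, g2, g3, g4, g5, g6, g7]⟩

theorem sq_of_norm {s : F} (h : norm (s • (1 : Oct a b c)) = 1) : s * s = 1 := by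
  rw [norm_smul, norm_one, mul_one] at h
  linear_combination h

/-- A related triple whose third component is the identity. -/
theorem Rel.ker [NeZero (2 : F)] {t : Tr a b c} (h : Rel t) (h2 : ∀ z, t.2.2 z = z) :
    ∃ s : F, s * s = 1 ∧ (∀ x, t.1 x = s • x) ∧ ∀ x, t.2.1 x = s • x := by
  have e0 : ∀ x y, t.1 x * t.2.1 y = x * y := by
    intro x y
    rw [h.mul01, h2, star_star]
  have e2 : ∀ z x, z * t.1 x = star (t.2.1 (star (z * x))) := by
    intro z x
    rw [← h.mul20, h2]
  have e3 : ∀ z x, z * t.1 x = t.1 (z * x) := by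
    intro z x
    rw [e2, ← one_mul (t.1 (z * x)), e2, one_mul]
  have e4 : ∀ x, t.1 x = x * t.1 1 := by
    intro x
    rw [e3, mul_one]
  obtain ⟨s, hs⟩ := nuc (p := t.1 1) fun z x => by rw [← e4, e3, e4]
  have hss : s * s = 1 := by
    apply sq_of_norm (a := a) (b := b) (c := c)
    rw [← hs, h.n0, norm_one]
  have e5 : ∀ x, t.1 x = s • x := by
    intro x
    rw [e4, hs, mul_smul_oct, mul_one]
  refine ⟨s, hss, e5, fun y => ?_⟩
  have e6 := e0 1 y
  rw [hs, smul_mul_oct, one_mul, one_mul] at e6
  calc t.2.1 y = s • s • t.2.1 y := by rw [smul_smul, hss, one_smul]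
    _ = s • y := by rw [e6]

/-- The third component of a related triple is not a reflection. -/
theorem Rel.not_refl [NeZero (2 : F)] {t : Tr a b c} (h : Rel t) {u : Oct a b c}
    (hu : norm u = 1) (h2 : ∀ z, t.2.2 z = z - bil u z • u) : False := by
  have h' := (Mf_rel hu).mul h
  have hz : ∀ z, (Mf u * t).2.2 z = -star z := by
    intro z
    rw [mul_2, Mf_2, h2, mul_mul_eq, bil_star_star, norm_star, hu, one_smul, bil_sub_right,
      bil_smul_right, bil_self, hu, star_sub, star_smul_oct]
    match_scalars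
    · ring
    · ring
  revert h' hz
  generalize Mf u * t = r
  intro h' hz
  have e0 : ∀ x y, r.1 x * r.2.1 y = -(star y * star x) := by
    intro x y
    rw [h'.mul01, hz, star_neg, star_star, star_mul]
  have hp : norm (r.1 1) = 1 := by rw [h'.n0, norm_one]
  have e1 : ∀ y, r.2.1 y = -(star (r.1 1) * star y) := by
    intro y
    have := congrArg (fun x => star (r.1 1) * x) (e0 1 y)
    simp only [star_one, mul_one] at this
    rw [star_mul_mul, hp, one_smul] at this
    rw [this, mul_neg]
  have e2 : ∀ x, r.1 x = star x * r.1 1 := by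
    intro x
    have e3 := e0 x 1
    rw [e1 1, star_one, mul_one, one_mul, mul_neg, neg_inj] at e3
    have e5 : (r.1 x * star (r.1 1)) * r.1 1 = star x * r.1 1 := by rw [e3]
    rw [mul_star_mul', hp, one_smul] at e5
    exact e5
  have e4 : ∀ x y, (star x * r.1 1) * (star (r.1 1) * star y) = star y * star x := by
    intro x y
    have := e0 x y
    rw [e2 x, e1 y, mul_neg, neg_inj] at this
    exact this
  obtain ⟨s, hs⟩ := center (p := star (r.1 1)) fun y => by
    have := e4 (r.1 1) (star y)
    rw [star_mul_self, hp, one_smul, one_mul, star_star] at this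
    exact this
  have hs' : r.1 1 = s • 1 := by
    rw [← star_star (r.1 1), hs, star_smul_oct, star_one]
  have hss : s * s = 1 := by
    apply sq_of_norm (a := a) (b := b) (c := c)
    rw [← hs', hp]
  have e5 := e4 (star gi) (star gj)
  simp only [hs', star_star, mul_smul_oct, mul_one] at e5
  have e6 := congrArg (fun x : Oct a b c => x.fst.imK) e5
  simp [gi, gj] at e6
  have e7 : (2 : F) = 0 := by linear_combination e6 - hss
  exact NeZero.ne (2 : F) e7

end Vale.Agent.P011.D4.Oct.Pl
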