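import Vale.Agent.P011.D4.R1

/-!
Related triples of isometries of an octonion algebra, and the lift of a product of two
reflections.
-/

namespace Vale.Agent.P011.D4.Oct.Pl

open Vale.Agent.P011.MPQ

/-- Triples of endomorphisms of the octonion algebra. -/
abbrev Tr {F : Type} [Field F] (a b c : Fˣ) : Type :=
  Module.End F (Oct a b c) × Module.End F (Oct a b c) × Module.End F (Oct a b c)

variable {F : Type} [Field F] {a b c : Fˣ}

theorem mul_0 (t s : Tr a b c) (x : Oct a b c) : (t * s).1 x = t.1 (s.1 x) := rfl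

theorem mul_1 (t s : Tr a b c) (x : Oct a b c) : (t * s).2.1 x = t.2.1 (s.2.1 x) := rfl

theorem mul_2 (t s : Tr a b c) (x : Oct a b c) : (t * s).2.2 x = t.2.2 (s.2.2 x) := rfl

theorem one_0 (x : Oct a b c) : (1 : Tr a b c).1 x = x := rfl

theorem one_1 (x : Oct a b c) : (1 : Tr a b c).2.1 x = x := rfl

theorem one_2 (x : Oct a b c) : (1 : Tr a b c).2.2 x = x := rfl

theorem tr_ext {t s : Tr a b c} (h0 : ∀ x, t.1 x = s.1 x) (h1 : ∀ x, t.2.1 x = s.2.1 x)
    (h2 : ∀ x, t.2.2 x = s.2.2 x) : t = s :=
  Prod.ext (LinearMap.ext h0) (Prod.ext (LinearMap.ext h1) (LinearMap.ext h2))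

/-- Related triples of isometries. -/
structure Rel (t : Tr a b c) : Prop where
  /-- The first component is an isometry. -/
  n0 : ∀ x, norm (t.1 x) = norm x
  /-- The second component is an isometry. -/
  n1 : ∀ x, norm (t.2.1 x) = norm x
  /-- The third component is an isometry. -/
  n2 : ∀ x, norm (t.2.2 x) = norm x
  /-- The trace of the triple product is preserved. -/
  tri : ∀ x y z, bil (t.1 x * t.2.1 y * t.2.2 z) 1 = bil (x * y * z) 1

theorem bil_map {t : Module.End F (Oct a b c)} (h : ∀ x, norm (t x) = norm x) (x y : Oct a b c) :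
    bil (t x) (t y) = bil x y := by
  rw [bil, bil, ← map_add, h, h, h]

theorem inj [NeZero (2 : F)] {t : Module.End F (Oct a b c)} (h : ∀ x, norm (t x) = norm x) :
    Function.Injective t := by
  rw [injective_iff_map_eq_zero]
  intro x hx
  apply eq_zero_of_bil
  intro y
  rw [← bil_map h, hx, bil_zero_left]

theorem surj [NeZero (2 : F)] {t : Module.End F (Oct a b c)} (h : ∀ x, norm (t x) = norm x) :
    Function.Surjective t :=
  LinearMap.surjective_of_injective (inj h)

theorem exists_star [NeZero (2 : F)] {t : Module.End F (Oct a b c)}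
    (h : ∀ x, norm (t x) = norm x) (w : Oct a b c) : ∃ z, w = star (t z) := by
  obtain ⟨z, hz⟩ := surj h (star w)
  exact ⟨z, by rw [hz, star_star]⟩

theorem tr01 (x y z : Oct a b c) : bil (x * y * z) 1 = bil (x * y) (star z) := by
  rw [bil_mul_left', one_mul]

theorem tr12 (x y z : Oct a b c) : bil (x * y * z) 1 = bil (y * z) (star x) := by
  rw [tr01, bil_mul_left, bil_mul_left' y]

theorem tr20 (x y z : Oct a b c) : bil (x * y * z) 1 = bil (z * x) (star y) := by
  rw [tr12, ← tr01, tr12]

namespace Rel

variable {t s : Tr a b c}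

theorem mul01 [NeZero (2 : F)] (h : Rel t) (x y : Oct a b c) :
    t.1 x * t.2.1 y = star (t.2.2 (star (x * y))) := by
  apply eq_of_bil
  intro w
  obtain ⟨z, rfl⟩ := exists_star h.n2 w
  rw [← tr01, h.tri, tr01, bil_star_star, bil_map h.n2, bil_star_left]

theorem mul12 [NeZero (2 : F)] (h : Rel t) (y z : Oct a b c) :
    t.2.1 y * t.2.2 z = star (t.1 (star (y * z))) := by
  apply eq_of_bil
  intro w
  obtain ⟨x, rfl⟩ := exists_star h.n0 w
  rw [← tr12, h.tri, tr12, bil_star_star, bil_map h.n0, bil_star_left]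

theorem mul20 [NeZero (2 : F)] (h : Rel t) (z x : Oct a b c) :
    t.2.2 z * t.1 x = star (t.2.1 (star (z * x))) := by
  apply eq_of_bil
  intro w
  obtain ⟨y, rfl⟩ := exists_star h.n1 w
  rw [← tr20, h.tri, tr20, bil_star_star, bil_map h.n1, bil_star_left]

theorem mul (h : Rel t) (h' : Rel s) : Rel (t * s) where
  n0 x := by rw [mul_0, h.n0, h'.n0]
  n1 x := by rw [mul_1, h.n1, h'.n1]
  n2 x := by rw [mul_2, h.n2, h'.n2]
  tri x y z := by rw [mul_0, mul_1, mul_2, h.tri, h'.tri]

theorem one : Rel (1 : Tr a b c) where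
  n0 _ := rfl
  n1 _ := rfl
  n2 _ := rfl
  tri _ _ _ := rfl

end Rel

/-- Left multiplication. -/
def lm (u : Oct a b c) : Module.End F (Oct a b c) where
  toFun x := u * x
  map_add' := mul_add u
  map_smul' t x := mul_smul_oct t u x

/-- Right multiplication. -/
def rm (u : Oct a b c) : Module.End F (Oct a b c) where
  toFun x := x * u
  map_add' x y := add_mul x y u
  map_smul' t x := smul_mul_oct t x u

@[simp] theorem lm_apply (u x : Oct a b c) : lm u x = u * x := rfl

@[simp] theorem rm_apply (u x : Oct a b c) : rm u x = x * u := rfl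

/-- The Moufang triple of a vector. -/
def Mf (u : Oct a b c) : Tr a b c := (lm u, rm u, lm (star u) * rm (star u))

/-- The lift of the product of the reflections in `u` and `w`. -/
def Lf (u w : Oct a b c) : Tr a b c := Mf (star u) * Mf w

@[simp] theorem Mf_0 (u x : Oct a b c) : (Mf u).1 x = u * x := rfl

@[simp] theorem Mf_1 (u x : Oct a b c) : (Mf u).2.1 x = x * u := rfl

@[simp] theorem Mf_2 (u x : Oct a b c) : (Mf u).2.2 x = star u * (x * star u) := rfl

theorem Lf_0 (u w x : Oct a b c) : (Lf u w).1 x = star u * (w * x) := rfl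

theorem Lf_1 (u w x : Oct a b c) : (Lf u w).2.1 x = (x * w) * star u := rfl

theorem Lf_2' (u w x : Oct a b c) :
    (Lf u w).2.2 x = u * ((star w * (x * star w)) * u) := by
  change (Mf (star u)).2.2 ((Mf w).2.2 x) = _
  rw [Mf_2, Mf_2, star_star]

theorem Lf_2 {u w : Oct a b c} (hu : norm u = 1) (hw : norm w = 1) (x : Oct a b c) :
    (Lf u w).2.2 x = x - bil w x • w - bil u x • u + (bil w x * bil u w) • u := by
  rw [Lf_2', mul_mul_eq (star w), mul_mul_eq u, norm_star, hu, hw, bil_star_star, one_smul,
    one_smul, star_sub, star_smul_oct, star_star, star_star, bil_sub_right, bil_smul_right,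
    sub_smul]
  abel

theorem Mf_rel [NeZero (2 : F)] {u : Oct a b c} (hu : norm u = 1) : Rel (Mf u) where
  n0 x := by rw [Mf_0, norm_mul, hu, one_mul]
  n1 x := by rw [Mf_1, norm_mul, hu, mul_one]
  n2 x := by rw [Mf_2, norm_mul, norm_mul, norm_star, hu, one_mul, mul_one]
  tri x y z := by
    rw [Mf_0, Mf_1, Mf_2, moufang, flex, tr01, star_mul, star_mul, star_star, flex,
      bil_mul_mul_left, hu, one_mul, bil_mul_mul_right, hu, one_mul, tr01]

theorem Lf_rel [NeZero (2 : F)] {u w : Oct a b c} (hu : norm u = 1) (hw : norm w = 1) :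
    Rel (Lf u w) :=
  (Mf_rel (by rw [norm_star, hu])).mul (Mf_rel hw)

theorem Lf_mul_Lf {u w : Oct a b c} (hu : norm u = 1) (hw : norm w = 1) :
    Lf w u * Lf u w = 1 := by
  refine tr_ext (fun x => ?_) (fun x => ?_) fun x => ?_
  · rw [mul_0, one_0, Lf_0, Lf_0, mul_star_mul, hu, one_smul, star_mul_mul, hw, one_smul]
  · rw [mul_1, one_1, Lf_1, Lf_1, mul_star_mul', hu, one_smul, mul_mul_star, hw, one_smul]
  · rw [mul_2, one_2, Lf_2', Lf_2', ← flex u, mul_mul_star, hu, one_smul, star_mul_mul, hu,
      one_smul, ← flex (star w), mul_star_mul', hw, one_smul, mul_star_mul, hw, one_smul]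

/-- Equivariance of the lifts. -/
theorem Rel.conj [NeZero (2 : F)] {t : Tr a b c} (h : Rel t) {u w : Oct a b c}
    (hu : norm u = 1) (hw : norm w = 1) :
    t * Lf u w = Lf (t.2.2 u) (t.2.2 w) * t := by
  refine tr_ext (fun x => ?_) (fun x => ?_) fun x => ?_
  · rw [mul_0, mul_0, Lf_0, Lf_0, h.mul20, ← star_mul, h.mul12, star_star, star_mul, star_star]
  · rw [mul_1, mul_1, Lf_1, Lf_1, h.mul12, ← star_mul, h.mul20, star_star, star_mul, star_star]
  · rw [mul_2, mul_2, Lf_2 hu hw, Lf_2 (by rw [h.n2, hu]) (by rw [h.n2, hw]), map_add, map_sub,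
      map_sub, map_smul, map_smul, map_smul, bil_map h.n2, bil_map h.n2, bil_map h.n2]

/-! The lifts of the rotations of an oriented plane. -/

/-- An orthonormal pair. -/
structure Orth (u v : Oct a b c) : Prop where
  /-- The first vector is a unit vector. -/
  nu : norm u = 1
  /-- The second vector is a unit vector. -/
  nv : norm v = 1
  /-- The vectors are orthogonal. -/
  uv : bil u v = 0

namespace Orth

variable {u v : Oct a b c}

theorem norm_rot (h : Orth u v) {C S : F} (hCS : C ^ 2 + S ^ 2 = 1) :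
    norm (C • u + S • v) = 1 := by
  rw [norm_add, norm_smul, norm_smul, bil_smul_left, bil_smul_right, h.nu, h.nv, h.uv]
  linear_combination hCS

theorem L0 (h : Orth u v) (C S : F) (x : Oct a b c) :
    (Lf u (C • u + S • v)).1 x = C • x + S • (star u * (v * x)) := by
  rw [Lf_0, add_mul, mul_add, smul_mul_oct, smul_mul_oct, mul_smul_oct, mul_smul_oct,
    star_mul_mul, h.nu, one_smul]

theorem L1 (h : Orth u v) (C S : F) (x : Oct a b c) :
    (Lf u (C • u + S • v)).2.1 x = C • x + S • ((x * v) * star u) := by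
  rw [Lf_1, mul_add, add_mul, mul_smul_oct, mul_smul_oct, smul_mul_oct, smul_mul_oct,
    mul_mul_star, h.nu, one_smul]

theorem L2 (h : Orth u v) {C S : F} (hCS : C ^ 2 + S ^ 2 = 1) (x : Oct a b c) :
    (Lf u (C • u + S • v)).2.2 x = x - S ^ 2 • (bil u x • u + bil v x • v) +
      (C * S) • (bil v x • u - bil u x • v) := by
  have huu : bil u u = 2 := by rw [bil_self, h.nu, mul_one]
  rw [Lf_2 h.nu (h.norm_rot hCS), bil_add_left, bil_add_right, bil_smul_left, bil_smul_left,
    bil_smul_right, bil_smul_right, h.uv, huu]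
  have e : C ^ 2 = 1 - S ^ 2 := by linear_combination hCS
  match_scalars
  · ring
  · linear_combination (bil u x) * e
  · ring

/-- The rotation of an orthonormal pair. -/
theorem rot (h : Orth u v) {p q : F} (hpq : p ^ 2 + q ^ 2 = 1) :
    Orth (p • u + q • v) ((-q) • u + p • v) where
  nu := h.norm_rot hpq
  nv := h.norm_rot (by linear_combination hpq)
  uv := by
    have huu : bil u u = 2 := by rw [bil_self, h.nu, mul_one]
    have hvv : bil v v = 2 := by rw [bil_self, h.nv, mul_one]
    have hvu : bil v u = 0 := by rw [bil_comm, h.uv]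
    simp only [bil_add_left, bil_add_right, bil_smul_left, bil_smul_right, huu, hvv, hvu, h.uv]
    ring

theorem skew (h : Orth u v) (x : Oct a b c) : star v * (u * x) = -(star u * (v * x)) := by
  have := star_mul_mul_add u x v
  rw [h.uv, zero_smul] at this
  exact eq_neg_of_add_eq_zero_right this

theorem skew' (h : Orth u v) (x : Oct a b c) : (x * u) * star v = -((x * v) * star u) := by
  have := mul_mul_star_add u x v
  rw [h.uv, zero_smul] at this
  exact eq_neg_of_add_eq_zero_left this

/-- The lift depends only on the oriented plane. -/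
theorem Lf_rot (h : Orth u v) {p q C S : F} (hpq : p ^ 2 + q ^ 2 = 1) (hCS : C ^ 2 + S ^ 2 = 1) :
    Lf (p • u + q • v) (C • (p • u + q • v) + S • ((-q) • u + p • v)) =
      Lf u (C • u + S • v) := by
  refine tr_ext (fun x => ?_) (fun x => ?_) fun x => ?_
  · rw [(h.rot hpq).L0, h.L0]
    congr 2
    have e1 : star u * (u * x) = x := by rw [star_mul_mul, h.nu, one_smul]
    have e2 : star v * (v * x) = x := by rw [star_mul_mul, h.nv, one_smul]
    simp only [star_add, star_smul_oct, add_mul, mul_add, smul_mul_oct, mul_smul_oct, h.skew,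
      e1, e2]
    match_scalars
    · ring
    · linear_combination hpq
  · rw [(h.rot hpq).L1, h.L1]
    congr 2
    have e1 : (x * u) * star u = x := by rw [mul_mul_star, h.nu, one_smul]
    have e2 : (x * v) * star v = x := by rw [mul_mul_star, h.nv, one_smul]
    simp only [star_add, star_smul_oct, add_mul, mul_add, smul_mul_oct, mul_smul_oct, h.skew',
      e1, e2]
    match_scalars
    · ring
    · linear_combination hpq
  · rw [(h.rot hpq).L2 hCS, h.L2 hCS]
    simp only [bil_add_left, bil_smul_left]
    congr 1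
    · congr 1
      congr 1
      match_scalars
      · linear_combination (bil u x) * hpq
      · linear_combination (bil v x) * hpq
    · congr 1
      match_scalars
      · linear_combination (bil v x) * hpq
      · linear_combination (-bil u x) * hpq

/-- The inverse of a lift. -/
theorem Lf_symm (h : Orth u v) {C S : F} (hCS : C ^ 2 + S ^ 2 = 1) :
    Lf (C • u + S • v) u = Lf u (C • u + (-S) • v) := by
  have e := h.Lf_rot hCS (C := C) (S := -S) (by linear_combination hCS)
  rw [← e]
  congr 1
  match_scalars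
  · linear_combination -hCS
  · ring

theorem inv (h : Orth u v) {C S : F} (hCS : C ^ 2 + S ^ 2 = 1) :
    Lf u (C • u + (-S) • v) * Lf u (C • u + S • v) = 1 := by
  rw [← h.Lf_symm hCS]
  exact Lf_mul_Lf h.nu (h.norm_rot hCS)

end Orth

end Vale.Agent.P011.D4.Oct.Pl
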