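import Vale.Agent.P011.H505.Rl.Ker
import Mathlib.Analysis.InnerProductSpace.Rayleigh
import Mathlib.Analysis.SpecialFunctions.Complex.Arg

/-!
A real related triple of isometries of a compact octonion algebra that commutes with a related
triple `j` whose third component has square `1` or `-1` is a product of lifts of rotations of
oriented planes on which the third component of `j` is a rotation.
-/

namespace Vale.Agent.P011.D4.Oct.Pl

open Vale.Agent.P011.MPQ

variable {a b c : ℝˣ}

theorem exists_angle {p q : ℝ} (h : p ^ 2 + q ^ 2 = 1) :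
    ∃ θ : ℝ, Real.cos θ = p ∧ Real.sin θ = q := by
  have h1 : ‖(⟨p, q⟩ : ℂ)‖ = 1 := by
    rw [Complex.norm_def, Complex.normSq_mk, Real.sqrt_eq_one]
    linear_combination h
  obtain ⟨θ, hθ⟩ := (Complex.norm_eq_one_iff _).1 h1
  refine ⟨θ, ?_, ?_⟩
  · have := congrArg Complex.re hθ
    rwa [Complex.exp_ofReal_mul_I_re] at this
  · have := congrArg Complex.im hθ
    rwa [Complex.exp_ofReal_mul_I_im] at this

theorem exists_eigvec (hpos : ∀ x : Oct a b c, x ≠ 0 → 0 < norm x)
    (S : Module.End ℝ (Oct a b c)) (hS : ∀ x y, bil (S x) y = bil x (S y))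
    (W : Submodule ℝ (Oct a b c)) (hW : ∀ x ∈ W, S x ∈ W) (hW0 : W ≠ ⊥) :
    ∃ v ∈ W, v ≠ 0 ∧ ∃ l : ℝ, S v = l • v := by
  let core : InnerProductSpace.Core ℝ W :=
    { inner := fun x y => bil x.1 y.1
      conj_inner_symm := fun x y => bil_comm _ _
      re_inner_nonneg := fun x => by
        change 0 ≤ bil x.1 x.1
        rw [bil_self]
        by_cases hx : x.1 = 0
        · rw [hx, norm_zero, mul_zero]
        · have := hpos _ hx
          positivity
      add_left := fun x y z => bil_add_left _ _ _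
      smul_left := fun x y r => bil_smul_left _ _ _
      definite := fun x hx => by
        change bil x.1 x.1 = 0 at hx
        rw [bil_self] at hx
        by_contra hne
        have h0 : x.1 ≠ 0 := fun h => hne (Subtype.ext h)
        have := hpos _ h0
        linarith }
  let _ : NormedAddCommGroup W := core.toNormedAddCommGroup
  let _ : InnerProductSpace ℝ W := InnerProductSpace.ofCore core.toCore
  have : Nontrivial W := Submodule.nontrivial_iff_ne_bot.2 hW0
  have hsym : (S.restrict hW).IsSymmetric := fun x y => hS x.1 y.1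
  obtain ⟨v, hv⟩ := hsym.hasEigenvalue_iSup_of_finiteDimensional.exists_hasEigenvector
  exact ⟨v.1, v.2, fun h => hv.2 (Subtype.ext h), _, congrArg Subtype.val hv.apply_eq_smul⟩

/-- The plane of `u` and `v` is stable under `t`, which acts on it as a rotation. -/
def RotOn (t : Module.End ℝ (Oct a b c)) (u v : Oct a b c) (p q : ℝ) : Prop :=
  p ^ 2 + q ^ 2 = 1 ∧ t u = p • u + q • v ∧ t v = (-q) • u + p • v

/-- The vectors fixed by the third component. -/
noncomputable def fx (t : Tr a b c) : Submodule ℝ (Oct a b c) := LinearMap.ker (t.2.2 - 1)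

theorem mem_fx {t : Tr a b c} {z : Oct a b c} : z ∈ fx t ↔ t.2.2 z = z := by
  rw [fx, LinearMap.mem_ker, LinearMap.sub_apply, Module.End.one_apply, sub_eq_zero]

/-- The lift of a rotation of the plane of `u` and `v`. -/
noncomputable def lift (u v : Oct a b c) (φ : ℝ) : Tr a b c :=
  Lf u (Real.cos φ • u + Real.sin φ • v)

theorem cs (φ : ℝ) : Real.cos φ ^ 2 + Real.sin φ ^ 2 = 1 := Real.cos_sq_add_sin_sq φ

theorem lift_rel {u v : Oct a b c} (h : Orth u v) (φ : ℝ) : Rel (lift u v φ) :=
  Lf_rel h.nu (h.norm_rot (cs φ))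

theorem lift_inv {u v : Oct a b c} (h : Orth u v) (φ : ℝ) :
    lift u v (-φ) * lift u v φ = 1 := by
  rw [lift, lift, Real.cos_neg, Real.sin_neg]
  exact h.inv (cs φ)

theorem lift_comm {j : Tr a b c} (hj : Rel j) {u v : Oct a b c} (h : Orth u v) {p q : ℝ}
    (hJ : RotOn j.2.2 u v p q) (φ : ℝ) : j * lift u v φ = lift u v φ * j := by
  rw [lift, hj.conj h.nu (h.norm_rot (cs φ)), map_add, map_smul, map_smul, hJ.2.1, hJ.2.2,
    h.Lf_rot hJ.1 (cs φ)]

theorem step {k j : Tr a b c} (hk : Rel k) (hj : Rel j) (hkj : k * j = j * k)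
    {u v : Oct a b c} (h : Orth u v) {p' q' : ℝ} (hJ : RotOn j.2.2 u v p' q') {p q : ℝ}
    (hT : RotOn k.2.2 u v p q) (hne : p ≠ 1) :
    ∃ φ : ℝ, Rel (lift u v φ * k) ∧ lift u v φ * k * j = j * (lift u v φ * k) ∧
      fx k < fx (lift u v φ * k) ∧ k = lift u v (-φ) * (lift u v φ * k) := by
  obtain ⟨θ, hc, hs⟩ := exists_angle hT.1
  have hCS := cs (θ / 2)
  have hp : p = 1 - 2 * Real.sin (θ / 2) ^ 2 := by
    have := Real.cos_two_mul (θ / 2)
    rw [mul_div_cancel₀ _ (two_ne_zero)] at this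
    rw [← hc, this]
    linear_combination 2 * hCS
  have hq : q = 2 * Real.sin (θ / 2) * Real.cos (θ / 2) := by
    have := Real.sin_two_mul (θ / 2)
    rw [mul_div_cancel₀ _ (two_ne_zero)] at this
    rw [← hs, this]
  refine ⟨θ / 2, (lift_rel h _).mul hk, ?_, ?_, ?_⟩
  · rw [mul_assoc, hkj, ← mul_assoc, ← lift_comm hj h hJ, mul_assoc]
  · have huu : bil u u = 2 := by rw [bil_self, h.nu, mul_one]
    have hvv : bil v v = 2 := by rw [bil_self, h.nv, mul_one]
    have hvu : bil v u = 0 := by rw [bil_comm, h.uv]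
    refine lt_of_le_of_ne (fun z hz => ?_) fun he => ?_
    · rw [mem_fx] at hz
      have e1 : bil z u = bil z (p • u + q • v) := by
        rw [← hT.2.1]
        nth_rw 2 [← hz]
        rw [bil_map hk.n2]
      have e2 : bil z v = bil z ((-q) • u + p • v) := by
        rw [← hT.2.2]
        nth_rw 2 [← hz]
        rw [bil_map hk.n2]
      rw [bil_add_right, bil_smul_right, bil_smul_right] at e1 e2
      have hdet : (1 - p) ^ 2 + q ^ 2 ≠ 0 := by
        have h1 : 0 < (1 - p) ^ 2 := by
          have : 1 - p ≠ 0 := fun h => hne (by linarith)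
          positivity
        positivity
      have g1 : bil u z = 0 := by
        rw [bil_comm]
        apply (mul_eq_zero.1 (show ((1 - p) ^ 2 + q ^ 2) * bil z u = 0 by
          linear_combination (1 - p) * e1 + q * e2)).resolve_left hdet
      have g2 : bil v z = 0 := by
        rw [bil_comm]
        apply (mul_eq_zero.1 (show ((1 - p) ^ 2 + q ^ 2) * bil z v = 0 by
          linear_combination (1 - p) * e2 - q * e1)).resolve_left hdet
      rw [mem_fx, mul_2, hz, lift, h.L2 hCS, g1, g2]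
      simp
    · have hmem : u ∈ fx (lift u v (θ / 2) * k) := by
        rw [mem_fx, mul_2, hT.2.1, lift, h.L2 hCS, bil_add_right, bil_add_right,
          bil_smul_right, bil_smul_right, bil_smul_right, bil_smul_right, huu, hvv, hvu, h.uv]
        have h1 := hT.1
        match_scalars
        · rw [hp, hq] at h1 ⊢
          linear_combination h1
        · rw [hp, hq]
          ring
      rw [← he, mem_fx, hT.2.1] at hmem
      have := congrArg (bil u) hmem
      rw [bil_add_right, bil_smul_right, bil_smul_right, huu, h.uv] at this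
      apply hne
      linarith
  · rw [← mul_assoc, lift_inv h, one_mul]

theorem nonneg (hpos : ∀ x : Oct a b c, x ≠ 0 → 0 < norm x) (x : Oct a b c) : 0 ≤ norm x := by
  by_cases hx : x = 0
  · rw [hx, norm_zero]
  · exact (hpos x hx).le

theorem norm_unit {x : Oct a b c} (hx : 0 < norm x) : norm ((Real.sqrt (norm x))⁻¹ • x) = 1 := by
  rw [norm_smul, inv_pow, Real.sq_sqrt hx.le, inv_mul_cancel₀ hx.ne']

/-- A stable subspace without fixed vectors contains a plane which is rotated or a vector which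
is sent to its negative. -/
theorem exists_rot (hpos : ∀ x : Oct a b c, x ≠ 0 → 0 < norm x) {T : Module.End ℝ (Oct a b c)}
    (hT : ∀ x, norm (T x) = norm x) {P : Submodule ℝ (Oct a b c)} (hP : ∀ x ∈ P, T x ∈ P)
    (hfix : ∀ x ∈ P, T x = x → x = 0) (hP0 : P ≠ ⊥) :
    ∃ u ∈ P, norm u = 1 ∧ (T u = -u ∨
      ∃ v ∈ P, Orth u v ∧ ∃ p q, RotOn T u v p q ∧ p ≠ 1) := by
  let e : Oct a b c ≃ₗ[ℝ] Oct a b c := LinearEquiv.ofInjectiveEndo T (inj hT)
  have he : ∀ x, T (e.symm x) = x := e.apply_symm_apply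
  have hP' : ∀ x ∈ P, e.symm x ∈ P := by
    have h1 : P.map T ≤ P := by
      rintro _ ⟨x, hx, rfl⟩
      exact hP x hx
    have h2 : P.map T = P := Submodule.eq_of_le_of_finrank_eq h1
      (Submodule.equivMapOfInjective T (inj hT) P).finrank_eq.symm
    intro x hx
    rw [← h2] at hx
    obtain ⟨y, hy, rfl⟩ := hx
    have : e.symm (T y) = y := e.symm_apply_apply y
    rwa [this]
  have hS : ∀ x y, bil ((T + (e.symm : Module.End ℝ (Oct a b c))) x) y =
      bil x ((T + (e.symm : Module.End ℝ (Oct a b c))) y) := by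
    intro x y
    change bil (T x + e.symm x) y = bil x (T y + e.symm y)
    rw [bil_add_left, bil_add_right, ← bil_map hT (e.symm x) y, he, ← bil_map hT x (e.symm y),
      he, add_comm]
  obtain ⟨w, hwP, hw0, l, hl⟩ := exists_eigvec hpos _ hS P
    (fun x hx => P.add_mem (hP x hx) (hP' x hx)) hP0
  obtain ⟨u, hu⟩ : ∃ u : Oct a b c, u = (Real.sqrt (norm w))⁻¹ • w := ⟨_, rfl⟩
  have hu1 : norm u = 1 := by rw [hu]; exact norm_unit (hpos w hw0)
  have huP : u ∈ P := by rw [hu]; exact P.smul_mem _ hwP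
  have hSu : T u + e.symm u = l • u := by
    have : T w + e.symm w = l • w := hl
    rw [hu, map_smul, map_smul, ← smul_add, this, smul_comm]
  have hTT : T (T u) = l • T u - u := by
    have := congrArg T hSu
    rw [map_add, he, map_smul] at this
    rw [← this, add_sub_cancel_right]
  have huu : bil u u = 2 := by rw [bil_self, hu1, mul_one]
  have hTu : bil (T u) u = l := by
    have h1 : bil (T u + e.symm u) u = l * 2 := by rw [hSu, bil_smul_left, huu]
    rw [bil_add_left, ← bil_map hT (e.symm u) u, he, bil_comm u] at h1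
    linarith
  have hn : norm (T u - (l / 2) • u) = 1 - (l / 2) ^ 2 := by
    rw [norm_sub, hT, hu1, norm_smul, hu1, bil_smul_right, hTu]
    ring
  refine ⟨u, huP, hu1, ?_⟩
  rcases lt_or_ge ((l / 2) ^ 2) 1 with hlt | hge
  · right
    obtain ⟨p, hp⟩ : ∃ p, p = l / 2 := ⟨_, rfl⟩
    rw [← hp] at hlt hn
    obtain ⟨q, hq2⟩ : ∃ q : ℝ, q ^ 2 = 1 - p ^ 2 :=
      ⟨Real.sqrt (1 - p ^ 2), Real.sq_sqrt (by linarith)⟩
    have hq0 : q ≠ 0 := by
      intro h0
      rw [h0] at hq2
      norm_num at hq2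
      linarith
    have hlp : l = 2 * p := by rw [hp]; ring
    refine ⟨q⁻¹ • (T u - p • u), P.smul_mem _ (P.sub_mem (hP u huP) (P.smul_mem _ huP)),
      ⟨hu1, ?_, ?_⟩, p, q, ⟨by rw [hq2]; ring, ?_, ?_⟩, ?_⟩
    · rw [norm_smul, hn, ← hq2]
      field_simp
    · rw [bil_smul_right, bil_sub_right, bil_smul_right, huu, bil_comm, hTu, hlp]
      ring
    · rw [smul_smul, mul_inv_cancel₀ hq0, one_smul]
      abel
    · rw [map_smul, map_sub, map_smul, hTT, hlp]
      match_scalars
      · field_simp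
        ring
      · field_simp
        rw [hq2]
        ring
    · intro h1
      rw [h1] at hlt
      norm_num at hlt
  · left
    have h0 : norm (T u - (l / 2) • u) = 0 :=
      le_antisymm (by rw [hn]; linarith) (nonneg hpos _)
    have h1 : T u - (l / 2) • u = 0 := by
      by_contra hne
      exact (hpos _ hne).ne' h0
    have h2 : (l / 2) ^ 2 = 1 := by rw [h0] at hn; linarith
    have h3 : T u = (l / 2) • u := sub_eq_zero.1 h1
    rcases sq_eq_sq_iff_eq_or_eq_neg.1 (h2.trans (one_pow 2).symm) with h4 | h4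
    · exfalso
      rw [h4, one_smul] at h3
      have := hfix u huP h3
      rw [this, norm_zero] at hu1
      exact zero_ne_one hu1
    · rw [h3, h4, neg_one_smul]

/-- The vectors orthogonal to the fixed vectors. -/
noncomputable def pp (T : Module.End ℝ (Oct a b c)) : Submodule ℝ (Oct a b c) where
  carrier := {x | ∀ z, T z = z → bil x z = 0}
  add_mem' hx hy z hz := by rw [bil_add_left, hx z hz, hy z hz, add_zero]
  zero_mem' z _ := bil_zero_left z
  smul_mem' r x hx z hz := by rw [bil_smul_left, hx z hz, mul_zero]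

theorem mem_pp {T : Module.End ℝ (Oct a b c)} {x : Oct a b c} :
    x ∈ pp T ↔ ∀ z, T z = z → bil x z = 0 := Iff.rfl

section pp

variable {T : Module.End ℝ (Oct a b c)}

theorem sub_mem_pp (hT : ∀ x, norm (T x) = norm x) (z : Oct a b c) : T z - z ∈ pp T := by
  intro f hf
  rw [bil_sub_left]
  nth_rw 1 [← hf]
  rw [bil_map hT, sub_self]

theorem map_mem_pp (hT : ∀ x, norm (T x) = norm x) {x : Oct a b c} (hx : x ∈ pp T) :
    T x ∈ pp T := by
  intro f hf
  rw [← hf, bil_map hT]
  exact hx f hf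

theorem pp_fix (hpos : ∀ x : Oct a b c, x ≠ 0 → 0 < norm x) {x : Oct a b c} (hx : x ∈ pp T)
    (h : T x = x) : x = 0 := by
  by_contra hne
  have h1 := hx x h
  rw [bil_self] at h1
  have := hpos x hne
  linarith

end pp

/-- Complex structures. -/
theorem no_plane_neg (hpos : ∀ x : Oct a b c, x ≠ 0 → 0 < norm x)
    {T J : Module.End ℝ (Oct a b c)} (hT : ∀ x, norm (T x) = norm x)
    (hJ : ∀ x, norm (J x) = norm x) (hTJ : ∀ x, T (J x) = J (T x)) (hJJ : ∀ z, J (J z) = -z)
    (hno : ∀ u v p' q' p q, Orth u v → RotOn J u v p' q' → RotOn T u v p q → p = 1)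
    (z : Oct a b c) : T z = z := by
  have horth : ∀ u, norm u = 1 → Orth u (J u) := fun u hu =>
    ⟨hu, by rw [hJ, hu], by
      have := bil_map hJ u (J u)
      rw [hJJ, bil_neg_right, bil_comm] at this
      linarith⟩
  have hrot : ∀ u, RotOn J u (J u) 0 1 := fun u =>
    ⟨by norm_num, by simp, by rw [hJJ]; simp⟩
  by_contra hne
  have hP0 : pp T ≠ ⊥ := by
    intro h0
    have := sub_mem_pp hT z
    rw [h0, Submodule.mem_bot, sub_eq_zero] at this
    exact hne this
  obtain ⟨u, -, hu1, h | ⟨v, -, huv, p, q, hR, hp1⟩⟩ :=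
    exists_rot hpos hT (fun x hx => map_mem_pp hT hx) (fun x hx => pp_fix hpos hx) hP0
  · have := hno u (J u) 0 1 (-1) 0 (horth u hu1) (hrot u)
      ⟨by norm_num, by rw [h]; simp, by rw [hTJ, h, map_neg]; simp⟩
    norm_num at this
  · apply hp1
    by_cases h0 : u + J v = 0
    · have h1 : J v = -u := eq_neg_of_add_eq_zero_right h0
      have h2 : J u = v := by
        have := congrArg J h1
        rw [hJJ, map_neg, neg_inj] at this
        exact this.symm
      exact hno u v 0 1 p q huv ⟨by norm_num, by rw [h2]; simp, by rw [h1]; simp⟩ hR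
    · obtain ⟨w, hw⟩ : ∃ w, w = u + J v := ⟨_, rfl⟩
      have hTw : T w = p • w - q • J w := by
        rw [hw, map_add, hTJ, hR.2.1, hR.2.2, map_add, map_smul, map_smul, map_add, hJJ]
        match_scalars <;> ring
      have hw0 : 0 < norm w := hpos w (by rw [hw]; exact h0)
      obtain ⟨y, hy⟩ : ∃ y : Oct a b c, y = (Real.sqrt (norm w))⁻¹ • w := ⟨_, rfl⟩
      have hy1 : norm y = 1 := by rw [hy]; exact norm_unit hw0
      have hTy : T y = p • y - q • J y := by
        rw [hy, map_smul, map_smul, hTw, smul_sub, smul_comm p, smul_comm q]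
      refine hno y (J y) 0 1 p (-q) (horth y hy1) (hrot y) ⟨by rw [neg_sq]; exact hR.1, ?_, ?_⟩
      · rw [hTy, neg_smul, sub_eq_add_neg]
      · rw [hTJ, hTy, map_sub, map_smul, map_smul, hJJ, neg_neg]
        match_scalars <;> ring

/-- The eigenvectors in the orthogonal complement of the fixed vectors. -/
theorem exists_line (hpos : ∀ x : Oct a b c, x ≠ 0 → 0 < norm x)
    {T J : Module.End ℝ (Oct a b c)} (hT : ∀ x, norm (T x) = norm x)
    (hTJ : ∀ x, T (J x) = J (T x)) {η : ℝ} (hη : η ^ 2 = 1)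
    (hno : ∀ u v p' q' p q, Orth u v → RotOn J u v p' q' → RotOn T u v p q → p = 1) :
    ∃ r : Oct a b c, (r = 0 ∨ norm r = 1) ∧ T r = -r ∧ J r = η • r ∧
      ∀ x ∈ pp T, J x = η • x → bil r x = 0 → x = 0 := by
  let Q : Submodule ℝ (Oct a b c) := pp T ⊓ LinearMap.ker (J - η • 1)
  have hQ : ∀ x, x ∈ Q ↔ x ∈ pp T ∧ J x = η • x := by
    intro x
    rw [Submodule.mem_inf, LinearMap.mem_ker, LinearMap.sub_apply, LinearMap.smul_apply,
      Module.End.one_apply, sub_eq_zero]
  have hQT : ∀ x ∈ Q, T x ∈ Q := by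
    intro x hx
    rw [hQ] at hx ⊢
    exact ⟨map_mem_pp hT hx.1, by rw [← hTJ, hx.2, map_smul]⟩
  by_cases hQ0 : Q = ⊥
  · refine ⟨0, Or.inl rfl, by simp, by simp, fun x hx hJx _ => ?_⟩
    have : x ∈ Q := (hQ x).2 ⟨hx, hJx⟩
    rwa [hQ0, Submodule.mem_bot] at this
  obtain ⟨u, huQ, hu1, h | ⟨v, hv, huv, p, q, hR, hp1⟩⟩ :=
    exists_rot hpos hT hQT (fun x hx => pp_fix hpos ((hQ x).1 hx).1) hQ0
  · refine ⟨u, Or.inr hu1, h, ((hQ u).1 huQ).2, fun x hx hJx hux => ?_⟩
    by_contra hx0
    let Q' : Submodule ℝ (Oct a b c) :=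
      { carrier := {x | x ∈ Q ∧ bil u x = 0}
        add_mem' := fun {x y} hx hy => ⟨Q.add_mem hx.1 hy.1, by
          rw [bil_add_right, hx.2, hy.2, add_zero]⟩
        zero_mem' := ⟨Q.zero_mem, bil_zero_right u⟩
        smul_mem' := fun r x hx => ⟨Q.smul_mem r hx.1, by
          rw [bil_smul_right, hx.2, mul_zero]⟩ }
    have hQ'T : ∀ x ∈ Q', T x ∈ Q' := by
      intro x hx
      refine ⟨hQT x hx.1, ?_⟩
      have h1 := bil_map hT u x
      rw [h, bil_neg_left, hx.2, neg_eq_zero] at h1
      exact h1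
    have hQ'0 : Q' ≠ ⊥ := by
      intro h0
      have : x ∈ Q' := ⟨(hQ x).2 ⟨hx, hJx⟩, hux⟩
      rw [h0, Submodule.mem_bot] at this
      exact hx0 this
    obtain ⟨u', huQ', hu1', h' | ⟨v, hv, huv, p, q, hR, hp1⟩⟩ :=
      exists_rot hpos hT hQ'T (fun x hx => pp_fix hpos ((hQ x).1 hx.1).1) hQ'0
    · have := hno u u' η 0 (-1) 0 ⟨hu1, hu1', huQ'.2⟩
        ⟨by rw [hη]; norm_num, by rw [((hQ u).1 huQ).2]; simp,
          by rw [((hQ u').1 huQ'.1).2]; simp⟩
        ⟨by norm_num, by rw [h]; simp, by rw [h']; simp⟩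
      norm_num at this
    · exact hp1 (hno u' v η 0 p q huv
        ⟨by rw [hη]; norm_num, by rw [((hQ u').1 huQ'.1).2]; simp,
          by rw [((hQ v).1 hv.1).2]; simp⟩ hR)
  · exact absurd (hno u v η 0 p q huv
        ⟨by rw [hη]; norm_num, by rw [((hQ u).1 huQ).2]; simp,
          by rw [((hQ v).1 hv).2]; simp⟩ hR) hp1

/-- Involutions. -/
theorem no_plane_pos (hpos : ∀ x : Oct a b c, x ≠ 0 → 0 < norm x)
    {T J : Module.End ℝ (Oct a b c)} (hT : ∀ x, norm (T x) = norm x)
    (hJ : ∀ x, norm (J x) = norm x) (hTJ : ∀ x, T (J x) = J (T x)) (hJJ : ∀ z, J (J z) = z)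
    (hno : ∀ u v p' q' p q, Orth u v → RotOn J u v p' q' → RotOn T u v p q → p = 1) :
    ∃ r s : Oct a b c, (r = 0 ∨ norm r = 1) ∧ (s = 0 ∨ norm s = 1) ∧ bil r s = 0 ∧
      J r = r ∧ J s = -s ∧ ∀ z, T z = z - bil r z • r - bil s z • s := by
  obtain ⟨r, hr, hTr, hJr, hQr⟩ := exists_line hpos hT hTJ (η := 1) (by norm_num) hno
  obtain ⟨s, hs, hTs, hJs, hQs⟩ := exists_line hpos hT hTJ (η := -1) (by norm_num) hno
  rw [one_smul] at hJr
  rw [neg_one_smul] at hJs
  have hrs : bil r s = 0 := by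
    have := bil_map hJ r s
    rw [hJr, hJs, bil_neg_right] at this
    linarith
  have hJsym : ∀ x y, bil x (J y) = bil (J x) y := fun x y => by
    rw [← bil_map hJ x (J y), hJJ]
  refine ⟨r, s, hr, hs, hrs, hJr, hJs, ?_⟩
  have key : ∀ z, bil r z = 0 → bil s z = 0 → T z = z := by
    intro z hrz hsz
    have hy := sub_mem_pp hT z
    obtain ⟨y, hyd⟩ : ∃ y, y = T z - z := ⟨_, rfl⟩
    rw [← hyd] at hy
    have hry : bil r y = 0 := by
      have h1 := bil_map hT r z
      rw [hTr, bil_neg_left, hrz, neg_eq_zero] at h1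
      rw [hyd, bil_sub_right, h1, hrz, sub_zero]
    have hsy : bil s y = 0 := by
      have h1 := bil_map hT s z
      rw [hTs, bil_neg_left, hsz, neg_eq_zero] at h1
      rw [hyd, bil_sub_right, h1, hsz, sub_zero]
    have hJy : J y ∈ pp T := by
      intro f hf
      rw [← hJsym]
      exact hy (J f) (by rw [hTJ, hf])
    have h1 : y + J y = 0 := hQr _ ((pp T).add_mem hy hJy) (by rw [map_add, hJJ, one_smul,
      add_comm]) (by rw [bil_add_right, hJsym, hJr, hry, add_zero])
    have h2 : y - J y = 0 := hQs _ ((pp T).sub_mem hy hJy) (by rw [map_sub, hJJ, neg_one_smul,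
      neg_sub]) (by rw [bil_sub_right, hJsym, hJs, bil_neg_left, hsy]; norm_num)
    have h3 : (2 : ℝ) • y = 0 := by
      have : (2 : ℝ) • y = (y + J y) + (y - J y) := by rw [two_smul]; abel
      rw [this, h1, h2, add_zero]
    have h4 : y = 0 := (smul_eq_zero.1 h3).resolve_left two_ne_zero
    rw [hyd, sub_eq_zero] at h4
    exact h4
  have hhalf : ∀ {t : Oct a b c}, (t = 0 ∨ norm t = 1) → ∀ z, bil t z - (1 / 2) * bil t z *
      bil t t = 0 := by
    rintro t (rfl | ht) z
    · simp
    · rw [bil_self, ht]; ring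
  intro z
  have h1 : T (z - ((1 / 2) * bil r z) • r - ((1 / 2) * bil s z) • s) =
      z - ((1 / 2) * bil r z) • r - ((1 / 2) * bil s z) • s := by
    apply key
    · rw [bil_sub_right, bil_sub_right, bil_smul_right, bil_smul_right, hrs, mul_zero, sub_zero]
      exact hhalf hr z
    · rw [bil_sub_right, bil_sub_right, bil_smul_right, bil_smul_right, bil_comm s r, hrs,
        mul_zero, sub_zero]
      exact hhalf hs z
  rw [map_sub, map_sub, map_smul, map_smul, hTr, hTs] at h1
  have h2 : T z = z - ((1 / 2) * bil r z) • r - ((1 / 2) * bil s z) • s +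
      ((1 / 2) * bil r z) • (-r) + ((1 / 2) * bil s z) • (-s) := by
    rw [← h1]; abel
  rw [h2]
  match_scalars <;> ring

/-- Without a plane which is rotated the third component is the identity. -/
theorem eq_id (hpos : ∀ x : Oct a b c, x ≠ 0 → 0 < norm x) {k j : Tr a b c} (hk : Rel k)
    (hj : Rel j) (hkj : k * j = j * k)
    (hjj : (∀ z, j.2.2 (j.2.2 z) = z) ∨ ∀ z, j.2.2 (j.2.2 z) = -z)
    (hno : ∀ u v p' q' p q, Orth u v → RotOn j.2.2 u v p' q' → RotOn k.2.2 u v p q → p = 1)
    (z : Oct a b c) : k.2.2 z = z := by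
  have hTJ : ∀ x, k.2.2 (j.2.2 x) = j.2.2 (k.2.2 x) := fun x => by
    rw [← mul_2, hkj, mul_2]
  rcases hjj with hjj | hjj
  · obtain ⟨r, s, hr, hs, hrs, hJr, hJs, hT⟩ :=
      no_plane_pos hpos hk.n2 hj.n2 hTJ hjj hno
    rcases hr with rfl | hr <;> rcases hs with rfl | hs
    · rw [hT]; simp
    · exact (hk.not_refl hs fun z => by rw [hT]; simp).elim
    · exact (hk.not_refl hr fun z => by rw [hT]; simp).elim
    · exfalso
      have h2 : ∀ z, (Lf s r * k).2.2 z = z := by
        intro z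
        have h3 : k.2.2 z = (Lf r s).2.2 z := by
          rw [hT, Lf_2 hr hs, hrs, mul_zero, zero_smul, add_zero, sub_right_comm]
        rw [mul_2, h3, ← mul_2, Lf_mul_Lf hr hs, one_2]
      obtain ⟨e, he, h0, -⟩ := ((Lf_rel hs hr).mul hk).ker h2
      have h4 : ∀ x, k.1 x = e • (Lf r s).1 x := by
        intro x
        have h5 : Lf r s * (Lf s r * k) = k := by
          rw [← mul_assoc, Lf_mul_Lf hs hr, one_mul]
        rw [← h5, mul_0, h0, map_smul]
      have h6 : ∀ x, j.1 ((Lf r s).1 x) = -(Lf r s).1 (j.1 x) := by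
        intro x
        rw [← mul_0, hj.conj hr hs, hJr, hJs, mul_0, Lf_0, Lf_0, neg_mul, mul_neg]
      have h7 : k.1 (j.1 1) = j.1 (k.1 1) := by rw [← mul_0, hkj, mul_0]
      rw [h4, h4, map_smul, h6, smul_neg, eq_neg_iff_add_eq_zero, ← two_smul ℝ, smul_smul] at h7
      have h8 := congrArg norm h7
      rw [norm_smul, (Lf_rel hr hs).n0, hj.n0, norm_one, norm_zero, mul_one] at h8
      have h9 : (2 * e) ^ 2 = 4 := by linear_combination 4 * he
      rw [h9] at h8
      norm_num at h8
  · exact no_plane_neg hpos hk.n2 hj.n2 hTJ hjj hno z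

/-- There is an oriented plane on which the third component of `j` is a rotation. -/
theorem exists_plane (hpos : ∀ x : Oct a b c, x ≠ 0 → 0 < norm x) {J : Module.End ℝ (Oct a b c)}
    (hJ : ∀ x, norm (J x) = norm x) (hJJ : (∀ z, J (J z) = z) ∨ ∀ z, J (J z) = -z) :
    ∃ u v p q, Orth u v ∧ RotOn J u v p q := by
  rcases hJJ with hJJ | hJJ
  · have h1 : LinearMap.ker (J - 1) ⊔ LinearMap.ker (J + 1) = ⊤ := by
      rw [eq_top_iff]
      intro z _
      have hz : z = (1 / 2 : ℝ) • (z + J z) + (1 / 2 : ℝ) • (z - J z) := by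
        match_scalars <;> ring
      rw [hz]
      refine Submodule.add_mem_sup ?_ ?_
      · rw [LinearMap.mem_ker, LinearMap.sub_apply, Module.End.one_apply, map_smul, map_add, hJJ]
        match_scalars <;> ring
      · rw [LinearMap.mem_ker, LinearMap.add_apply, Module.End.one_apply, map_smul, map_sub, hJJ]
        match_scalars <;> ring
    have h2 := Submodule.finrank_add_le_finrank_add_finrank (LinearMap.ker (J - 1))
      (LinearMap.ker (J + 1))
    rw [h1, finrank_top, finrank_oct] at h2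
    have main : ∀ (η : ℝ) (W : Submodule ℝ (Oct a b c)), η ^ 2 = 1 → (∀ x ∈ W, J x = η • x) →
        1 < Module.finrank ℝ W → ∃ u v p q, Orth u v ∧ RotOn J u v p q := by
      intro η W hη hW hW1
      have : Nontrivial W := Module.nontrivial_of_finrank_pos (R := ℝ) (by omega)
      obtain ⟨x, hx⟩ := exists_ne (0 : W)
      obtain ⟨y, hy⟩ := exists_linearIndependent_pair_of_one_lt_finrank hW1 hx
      have hx0 : 0 < norm x.1 := hpos _ fun h => hx (Subtype.ext h)
      obtain ⟨u, hu⟩ : ∃ u : Oct a b c, u = (Real.sqrt (norm x.1))⁻¹ • x.1 := ⟨_, rfl⟩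
      have hu1 : norm u = 1 := by rw [hu]; exact norm_unit hx0
      have huW : u ∈ W := by rw [hu]; exact W.smul_mem _ x.2
      obtain ⟨w, hw⟩ : ∃ w : Oct a b c, w = y.1 - ((1 / 2) * bil u y.1) • u := ⟨_, rfl⟩
      have hwW : w ∈ W := by rw [hw]; exact W.sub_mem y.2 (W.smul_mem _ huW)
      have huw : bil u w = 0 := by
        rw [hw, bil_sub_right, bil_smul_right, bil_self, hu1]
        ring
      have hw0 : w ≠ 0 := by
        intro h0
        rw [hw, hu, smul_smul, sub_eq_zero] at h0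
        rw [LinearIndependent.pair_iff] at hy
        have := hy (1 / 2 * bil ((Real.sqrt (norm x.1))⁻¹ • x.1) y.1 *
          (Real.sqrt (norm x.1))⁻¹) (-1) (Subtype.ext (by
            change (_ : ℝ) • x.1 + (-1 : ℝ) • y.1 = 0
            rw [← h0, neg_one_smul, add_neg_cancel]))
        norm_num at this
      refine ⟨u, (Real.sqrt (norm w))⁻¹ • w, η, 0, ⟨hu1, norm_unit (hpos w hw0), ?_⟩,
        by rw [hη]; norm_num, ?_, ?_⟩
      · rw [bil_smul_right, huw, mul_zero]
      · rw [hW u huW]; simp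
      · rw [map_smul, hW w hwW, smul_comm]; simp
    rcases lt_or_ge 1 (Module.finrank ℝ (LinearMap.ker (J - 1))) with h3 | h3
    · refine main 1 _ (by norm_num) (fun x hx => ?_) h3
      rw [LinearMap.mem_ker, LinearMap.sub_apply, Module.End.one_apply, sub_eq_zero] at hx
      rw [hx, one_smul]
    · refine main (-1) (LinearMap.ker (J + 1)) (by norm_num) (fun x hx => ?_) (by omega)
      rw [LinearMap.mem_ker, LinearMap.add_apply, Module.End.one_apply,
        add_eq_zero_iff_eq_neg] at hx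
      rw [hx, neg_one_smul]
  · refine ⟨1, J 1, 0, 1, ⟨norm_one, by rw [hJ, norm_one], ?_⟩, by norm_num, by simp,
      by rw [hJJ]; simp⟩
    have := bil_map hJ 1 (J 1)
    rw [hJJ, bil_neg_right, bil_comm] at this
    linarith

/-- **Planes.** A related triple `k` that commutes with a related triple `j` is a product of lifts
of rotations of the oriented planes on which the third component of `j` is a rotation. -/
theorem planes (hpos : ∀ x : Oct a b c, x ≠ 0 → 0 < norm x) {k j : Tr a b c} (hk : Rel k)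
    (hj : Rel j) (hkj : k * j = j * k)
    (hjj : (∀ z, j.2.2 (j.2.2 z) = z) ∨ ∀ z, j.2.2 (j.2.2 z) = -z) (L : Set (Tr a b c))
    (h1 : 1 ∈ L) (hm : ∀ x ∈ L, ∀ y ∈ L, x * y ∈ L)
    (hL : ∀ u v : Oct a b c, norm u = 1 → norm v = 1 → bil u v = 0 →
      (∃ p q : ℝ, p ^ 2 + q ^ 2 = 1 ∧ j.2.2 u = p • u + q • v ∧ j.2.2 v = (-q) • u + p • v) →
        ∀ φ : ℝ, Lf u (Real.cos φ • u + Real.sin φ • v) ∈ L) : k ∈ L := by
  induction hn : 8 - Module.finrank ℝ (fx k) using Nat.strong_induction_on generalizing k with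
  | _ n ih =>
    by_cases hex : ∃ u v p' q' p q, Orth u v ∧ RotOn j.2.2 u v p' q' ∧ RotOn k.2.2 u v p q ∧ p ≠ 1
    · obtain ⟨u, v, p', q', p, q, huv, hJ, hT, hp⟩ := hex
      obtain ⟨φ, hr, hc, hlt, he⟩ := step hk hj hkj huv hJ hT hp
      have h2 := Submodule.finrank_lt_finrank_of_lt hlt
      have h3 := Submodule.finrank_le (fx (lift u v φ * k))
      rw [finrank_oct] at h3
      rw [he]
      exact hm _ (hL u v huv.nu huv.nv huv.uv ⟨p', q', hJ⟩ (-φ)) _
        (ih _ (by omega) hr hc rfl)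
    · have hno : ∀ u v p' q' p q, Orth u v → RotOn j.2.2 u v p' q' → RotOn k.2.2 u v p q →
          p = 1 := by
        intro u v p' q' p q h1 h2 h3
        by_contra hne
        exact hex ⟨u, v, p', q', p, q, h1, h2, h3, hne⟩
      have hid := eq_id hpos hk hj hkj hjj hno
      obtain ⟨s, hs, h0, h1'⟩ := hk.ker hid
      rcases mul_self_eq_one_iff.1 hs with rfl | rfl
      · have : k = 1 := tr_ext (fun x => by rw [h0, one_smul, one_0])
          (fun x => by rw [h1', one_smul, one_1]) fun x => by rw [hid, one_2]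
        rw [this]
        exact h1
      · obtain ⟨u, v, p, q, huv, hJ⟩ := exists_plane hpos hj.n2 hjj
        have hpi : Real.cos Real.pi ^ 2 + Real.sin Real.pi ^ 2 = 1 := cs Real.pi
        have : k = Lf u (Real.cos Real.pi • u + Real.sin Real.pi • v) := by
          refine tr_ext (fun x => ?_) (fun x => ?_) fun x => ?_
          · rw [h0, huv.L0]; simp
          · rw [h1', huv.L1]; simp
          · rw [hid, huv.L2 hpi]; simp
        rw [this]
        exact hL u v huv.nu huv.nv huv.uv ⟨p, q, hJ⟩ Real.pi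

end Vale.Agent.P011.D4.Oct.Pl
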